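import Crest.Agent.R147.KN.Basic

-- ▼ part R147/KN/LemW
section

/-!
# Lemma W and Lemma C* (helper843 #5028, helper844 #5748) for hypergraph percolation
-/

set_option autoImplicit false
set_option linter.unusedSectionVars false

open Finset

namespace Crest.Agent.R147.KN

namespace HG

variable {V E : Type*} [DecidableEq V] [DecidableEq E] [Fintype V] (G : HG V E)

theorem ex_mono_set {A B : Finset E} (h : A ⊆ B) {f : Finset E → ℝ}
    (hf : ∀ S S', S ⊆ S' → f S ≤ f S') : G.ex A f ≤ G.ex B f := by
  rw [← G.ex_sub_config h]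
  exact G.ex_mono fun S _ => hf _ _ Finset.inter_subset_left

theorem ex_anti_set {A B : Finset E} (h : A ⊆ B) {f : Finset E → ℝ}
    (hf : ∀ S S', S ⊆ S' → f S' ≤ f S) : G.ex B f ≤ G.ex A f := by
  rw [← G.ex_sub_config h]
  exact G.ex_mono fun S _ => hf _ _ Finset.inter_subset_left

theorem ex_ite {A : Finset E} (P : Prop) [Decidable P] (f g : Finset E → ℝ) :
    G.ex A (fun S => if P then f S else g S) = if P then G.ex A f else G.ex A g := by
  by_cases h : P <;> simp [h]

theorem mem_cl_iff_not_disj {S : Finset E} {k : V} {s : Finset V} :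
    k ∈ G.cl S s ↔ ¬ Disjoint (G.cl S {k}) s := by
  rw [mem_cl_iff_exists, Finset.not_disjoint_iff]
  constructor
  · rintro ⟨x, hx, hk⟩
    exact ⟨x, G.mem_cl_symm hk, hx⟩
  · rintro ⟨x, hk, hx⟩
    exact ⟨x, hx, G.mem_cl_symm hk⟩

theorem notMem_cl_iff_disj {S : Finset E} {k : V} {s : Finset V} :
    k ∉ G.cl S s ↔ Disjoint (G.cl S {k}) s := by
  rw [mem_cl_iff_not_disj, not_not]

/-- conditioning on the cluster of `s` -/
theorem ex_split_s (A : Finset E) (k : V) (s : Finset V) (Θ : Finset V → Finset V → ℝ) :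
    G.ex A (fun S => if k ∈ G.cl S s then 0 else Θ (G.cl S s) (G.cl S {k}))
      = G.ex A (fun S => if k ∈ G.cl S s then 0 else
          G.ex (G.off A (G.cl S s)) (fun S' => Θ (G.cl S s) (G.cl S' {k}))) := by
  have h := G.resample A s (fun T S' => if k ∈ T then 0 else Θ T (G.cl S' {k}))
  have h1 : G.ex A (fun S => if k ∈ G.cl S s then 0 else Θ (G.cl S s) (G.cl S {k}))
      = G.ex A (fun S => if k ∈ G.cl S s then 0 else
          Θ (G.cl S s) (G.cl (G.off S (G.cl S s)) {k})) := by
    refine G.ex_congr fun S _ => ?_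
    by_cases hk : k ∈ G.cl S s
    · rw [if_pos hk, if_pos hk]
    · rw [if_neg hk, if_neg hk, G.cl_off (G.sat_cl S s) (by simpa using hk)]
  rw [h1, h]
  refine G.ex_congr fun S _ => ?_
  rw [G.ex_ite, G.ex_const]

/-- conditioning on the cluster of `k` -/
theorem ex_split_k (A : Finset E) (k : V) (s : Finset V) (Θ : Finset V → Finset V → ℝ) :
    G.ex A (fun S => if k ∈ G.cl S s then 0 else Θ (G.cl S s) (G.cl S {k}))
      = G.ex A (fun S => if k ∈ G.cl S s then 0 else
          G.ex (G.off A (G.cl S {k})) (fun S' => Θ (G.cl S' s) (G.cl S {k}))) := by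
  have h := G.resample A {k} (fun R S' => if Disjoint R s then Θ (G.cl S' s) R else 0)
  have h1 : G.ex A (fun S => if k ∈ G.cl S s then 0 else Θ (G.cl S s) (G.cl S {k}))
      = G.ex A (fun S => if Disjoint (G.cl S {k}) s then
          Θ (G.cl (G.off S (G.cl S {k})) s) (G.cl S {k}) else 0) := by
    refine G.ex_congr fun S _ => ?_
    by_cases hk : k ∈ G.cl S s
    · rw [if_pos hk, if_neg ((G.mem_cl_iff_not_disj).1 hk)]
    · have hd := (G.notMem_cl_iff_disj).1 hk
      rw [if_neg hk, if_pos hd, G.cl_off (G.sat_cl S {k}) hd.symm]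
  rw [h1, h]
  refine G.ex_congr fun S _ => ?_
  rw [G.ex_ite, G.ex_const]
  by_cases hk : k ∈ G.cl S s
  · rw [if_pos hk, if_neg ((G.mem_cl_iff_not_disj).1 hk)]
  · rw [if_neg hk, if_pos ((G.notMem_cl_iff_disj).1 hk)]

/-- `(P f)(T) = E^{Ω ∖ T} f(C_k)` -/
noncomputable def Pop (Ω : Finset E) (k : V) (f : Finset V → ℝ) (T : Finset V) : ℝ :=
  G.ex (G.off Ω T) (fun S => f (G.cl S {k}))

/-- `(Q g)(R) = E^{Ω ∖ R} g(C_s)` -/
noncomputable def Qop (Ω : Finset E) (s : Finset V) (g : Finset V → ℝ) (R : Finset V) : ℝ :=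
  G.ex (G.off Ω R) (fun S => g (G.cl S s))

theorem Pop_anti (Ω : Finset E) (k : V) {f : Finset V → ℝ} (hf : Monotone f) :
    Antitone (G.Pop Ω k f) := by
  intro T T' h
  exact G.ex_mono_set (G.off_anti Ω h) fun S S' hS => hf (G.cl_mono hS (Finset.Subset.refl _))

theorem Qop_mono (Ω : Finset E) (s : Finset V) {g : Finset V → ℝ} (hg : Antitone g) :
    Monotone (G.Qop Ω s g) := by
  intro R R' h
  exact G.ex_anti_set (G.off_anti Ω h) fun S S' hS => hg (G.cl_mono hS (Finset.Subset.refl _))

/-- exploration from `X` in a sub-percolation, then fresh outside, is dominated -/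
theorem sub_perc {A Ω : Finset E} (h : A ⊆ Ω) (k : V) (X : Finset V) {α : Finset V → ℝ}
    (hα : Monotone α) :
    G.ex A (fun S => if k ∈ G.cl S X then α (G.cl S {k}) else
        G.ex (G.off Ω (G.cl S X)) (fun S' => α (G.cl S' {k})))
      ≤ G.ex Ω (fun S => α (G.cl S {k})) := by
  set B : Finset E := Ω \ A with hB
  have hΩ : Ω = A ∪ B := by rw [hB, Finset.union_sdiff_of_subset h]
  have hd : Disjoint A B := Finset.disjoint_sdiff
  have hR : G.ex Ω (fun S => α (G.cl S {k}))
      = G.ex A (fun S => G.ex B (fun S' => α (G.cl (S ∪ S') {k}))) := by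
    conv_lhs => rw [hΩ]
    rw [G.ex_union hd]
  rw [hR]
  -- the good decomposition
  have h1 : G.ex A (fun S => if k ∈ G.cl S X then α (G.cl S {k}) else
        G.ex (G.off Ω (G.cl S X)) (fun S' => α (G.cl S' {k})))
      = G.ex A (fun S => if k ∈ G.cl S X then α (G.cl S {k}) else
        G.ex B (fun S' => α (G.cl (G.off S (G.cl S X) ∪ G.off S' (G.cl S X)) {k}))) := by
    have e1 : ∀ S, (if k ∈ G.cl S X then α (G.cl S {k}) else
        G.ex (G.off Ω (G.cl S X)) (fun S' => α (G.cl S' {k})))
        = (if k ∈ G.cl S X then α (G.cl S {k}) else 0)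
          + (if k ∈ G.cl S X then 0 else
              G.ex (G.off Ω (G.cl S X)) (fun S' => α (G.cl S' {k}))) := by
      intro S; split_ifs <;> simp
    have e2 : ∀ S, (if k ∈ G.cl S X then α (G.cl S {k}) else
        G.ex B (fun S' => α (G.cl (G.off S (G.cl S X) ∪ G.off S' (G.cl S X)) {k})))
        = (if k ∈ G.cl S X then α (G.cl S {k}) else 0)
          + (if k ∈ G.cl S X then 0 else
            G.ex B (fun S' => α (G.cl (G.off S (G.cl S X) ∪ G.off S' (G.cl S X)) {k}))) := by
      intro S; split_ifs <;> simp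
    rw [G.ex_congr fun S _ => e1 S, G.ex_congr fun S _ => e2 S, G.ex_add, G.ex_add]
    congr 1
    have hres := G.resample A X (fun D S₂ => if k ∈ D then 0 else
      G.ex B (fun S' => α (G.cl (S₂ ∪ G.off S' D) {k})))
    rw [hres]
    refine G.ex_congr fun S _ => ?_
    rw [G.ex_ite, G.ex_const]
    congr 1
    set D := G.cl S X
    have hΩD : G.off Ω D = G.off A D ∪ G.off B D := by
      conv_lhs => rw [hΩ]
      rw [G.off_union_config]
    have hdD : Disjoint (G.off A D) (G.off B D) :=
      Finset.disjoint_of_subset_left (G.off_subset A D)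
        (Finset.disjoint_of_subset_right (G.off_subset B D) hd)
    rw [hΩD, G.ex_union hdD]
    refine G.ex_congr fun S₂ _ => ?_
    rw [← G.ex_sub_config (G.off_subset B D) (fun S' => α (G.cl (S₂ ∪ S') {k}))]
    refine G.ex_congr fun S' hS' => ?_
    have : S' ∩ G.off B D = G.off S' D := by
      ext e
      simp only [Finset.mem_inter, mem_off]
      constructor
      · rintro ⟨a, b, c⟩; exact ⟨a, c⟩
      · rintro ⟨a, b⟩; exact ⟨a, hS' a, b⟩
    rw [this]
  rw [h1]
  refine G.ex_mono fun S _ => ?_
  by_cases hk : k ∈ G.cl S X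
  · rw [if_pos hk]
    exact G.le_ex_of_le fun S' _ => hα (G.cl_mono Finset.subset_union_left (Finset.Subset.refl _))
  · rw [if_neg hk]
    refine G.ex_mono fun S' _ => hα (G.cl_mono ?_ (Finset.Subset.refl _))
    exact Finset.union_subset_union (G.off_subset _ _) (G.off_subset _ _)

/-- the function `(β(C_s) - α(C_k)) 1{k ≁ s}`, `β = P α` -/
noncomputable def phi (Ω : Finset E) (k : V) (s : Finset V) (α : Finset V → ℝ)
    (S : Finset E) : ℝ :=
  if k ∈ G.cl S s then 0 else G.Pop Ω k α (G.cl S s) - α (G.cl S {k})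

/-- `W` is monotone: one edge -/
theorem W_insert {A Ω : Finset E} (hA : A ⊆ Ω) {e : E} (_heΩ : e ∈ Ω) (k : V)
    (s : Finset V) {α : Finset V → ℝ} (hα : Monotone α) :
    G.ex A (fun S => G.phi Ω k s α (insert e S)) ≤ G.ex A (G.phi Ω k s α) := by
  -- the difference as a function of the cluster of `s` and the configuration off it
  set Ψ : Finset V → Finset E → ℝ := fun T S₂ =>
    if k ∈ T then 0 else
    if Disjoint (G.inc e) T then α (G.cl (insert e S₂) {k}) - α (G.cl S₂ {k}) else
    if G.inc e ⊆ T then 0 else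
      G.Pop Ω k α T - (if k ∈ G.cl S₂ (G.inc e \ T) then α (G.cl S₂ {k}) else
        G.Pop Ω k α (T ∪ G.cl S₂ (G.inc e \ T))) with hΨ
  have key : ∀ S, S ⊆ A → G.phi Ω k s α S - G.phi Ω k s α (insert e S)
      = Ψ (G.cl S s) (G.off S (G.cl S s)) := by
    intro S _
    set T := G.cl S s with hT
    have hsatT : G.Sat S T := G.sat_cl S s
    have hTsub : T ⊆ G.cl (insert e S) s :=
      G.cl_mono (Finset.subset_insert _ _) (Finset.Subset.refl _)
    simp only [hΨ]
    by_cases hk : k ∈ T
    · rw [if_pos hk]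
      unfold phi
      rw [if_pos hk, if_pos (hTsub hk), sub_zero]
    · rw [if_neg hk]
      have hkd : Disjoint ({k} : Finset V) T := by simpa using hk
      have hCk : G.cl (G.off S T) {k} = G.cl S {k} := G.cl_off hsatT hkd
      by_cases h1 : Disjoint (G.inc e) T
      · -- e outside T
        rw [if_pos h1]
        have hsat' : G.Sat (insert e S) T := by
          intro f hf
          rcases Finset.mem_insert.1 hf with rfl | hf
          · exact Or.inr h1
          · exact hsatT f hf
        have hcl : G.cl (insert e S) s = T := by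
          apply Finset.Subset.antisymm
          · exact G.cl_subset (G.subset_cl S s) hsat'
          · exact hTsub
        have hoff : G.off (insert e S) T = insert e (G.off S T) := by
          ext f
          simp only [mem_off, Finset.mem_insert]
          constructor
          · rintro ⟨rfl | a, b⟩
            · exact Or.inl rfl
            · exact Or.inr ⟨a, b⟩
          · rintro (rfl | ⟨a, b⟩)
            · exact ⟨Or.inl rfl, h1⟩
            · exact ⟨Or.inr a, b⟩
        have hCk' : G.cl (insert e (G.off S T)) {k} = G.cl (insert e S) {k} := by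
          rw [← hoff]; exact G.cl_off hsat' hkd
        unfold phi
        rw [← hT, if_neg hk, hcl, if_neg hk, hCk, hCk']
        ring
      · rw [if_neg h1]
        by_cases h2 : G.inc e ⊆ T
        · rw [if_pos h2]
          have hsat' : G.Sat (insert e S) T := by
            intro f hf
            rcases Finset.mem_insert.1 hf with rfl | hf
            · exact Or.inl h2
            · exact hsatT f hf
          have hcl : G.cl (insert e S) s = T := by
            apply Finset.Subset.antisymm
            · exact G.cl_subset (G.subset_cl S s) hsat'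
            · exact hTsub
          have hoff : G.off (insert e S) T = G.off S T := by
            ext f
            simp only [mem_off, Finset.mem_insert]
            constructor
            · rintro ⟨rfl | a, b⟩
              · exact absurd b h1
              · exact ⟨a, b⟩
            · rintro ⟨a, b⟩
              exact ⟨Or.inr a, b⟩
          have hCk' : G.cl (insert e S) {k} = G.cl S {k} := by
            rw [← G.cl_off hsat' hkd, hoff, hCk]
          unfold phi
          rw [← hT, if_neg hk, hcl, if_neg hk, hCk', sub_self]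
        · rw [if_neg h2]
          set X := G.inc e \ T with hX
          have hXd : Disjoint X T := Finset.sdiff_disjoint
          set D := G.cl (G.off S T) X with hD
          have hDS : D = G.cl S X := G.cl_off hsatT hXd
          have hsatD : G.Sat S D := by rw [hDS]; exact G.sat_cl S X
          have hDT : Disjoint D T := by rw [hDS]; exact G.disj_cl_of_sat hsatT hXd
          have hXD : X ⊆ D := G.subset_cl _ X
          have hsub : G.inc e ⊆ T ∪ D := by
            intro v hv
            by_cases hvT : v ∈ T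
            · exact Finset.mem_union_left _ hvT
            · exact Finset.mem_union_right _ (hXD (Finset.mem_sdiff.2 ⟨hv, hvT⟩))
          have hsatTD : G.Sat (insert e S) (T ∪ D) := by
            intro f hf
            rcases Finset.mem_insert.1 hf with rfl | hf
            · exact Or.inl hsub
            · exact (hsatT.union hsatD) f hf
          have hcl : G.cl (insert e S) s = T ∪ D := by
            apply Finset.Subset.antisymm
            · exact G.cl_subset ((G.subset_cl S s).trans Finset.subset_union_left) hsatTD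
            · apply Finset.union_subset hTsub
              rw [hDS]
              refine G.cl_subset ?_ ((G.sat_cl (insert e S) s).mono (Finset.subset_insert _ _))
              rcases G.sat_cl (insert e S) s e (Finset.mem_insert_self _ _) with h3 | h3
              · exact (Finset.sdiff_subset).trans h3
              · exact absurd (Finset.disjoint_of_subset_right hTsub h3) h1
          unfold phi
          rw [← hT, if_neg hk, hcl, hCk]
          by_cases hkD : k ∈ D
          · rw [if_pos (Finset.mem_union_right _ hkD), if_pos hkD]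
            ring
          · have hkTD : k ∉ T ∪ D := by
              rw [Finset.mem_union, not_or]; exact ⟨hk, hkD⟩
            rw [if_neg hkTD, if_neg hkD]
            have hoff : G.off (insert e S) (T ∪ D) = G.off S (T ∪ D) := by
              ext f
              simp only [mem_off, Finset.mem_insert]
              constructor
              · rintro ⟨rfl | a, b⟩
                · exact absurd (Finset.disjoint_of_subset_right Finset.subset_union_left b) h1
                · exact ⟨a, b⟩
              · rintro ⟨a, b⟩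
                exact ⟨Or.inr a, b⟩
            have hCk' : G.cl (insert e S) {k} = G.cl S {k} := by
              rw [← G.cl_off hsatTD (by simpa using hkTD), hoff,
                G.cl_off (hsatT.union hsatD) (by simpa using hkTD)]
            rw [hCk']
            ring
  have hdiff : 0 ≤ G.ex A (fun S => G.phi Ω k s α S - G.phi Ω k s α (insert e S)) := by
    rw [G.ex_congr key, G.resample A s Ψ]
    refine G.ex_nonneg fun S _ => ?_
    set T := G.cl S s
    simp only [hΨ]
    by_cases hk : k ∈ T
    · simp only [if_pos hk]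
      rw [G.ex_const]
    · simp only [if_neg hk]
      by_cases h1 : Disjoint (G.inc e) T
      · simp only [if_pos h1]
        refine G.ex_nonneg fun S₂ _ => ?_
        have := hα (G.cl_mono (D := {k}) (D' := {k}) (Finset.subset_insert e S₂)
          (Finset.Subset.refl _))
        linarith
      · simp only [if_neg h1]
        by_cases h2 : G.inc e ⊆ T
        · simp only [if_pos h2]
          rw [G.ex_const]
        · simp only [if_neg h2]
          rw [G.ex_sub, G.ex_const]
          have := G.sub_perc (G.off_mono hA T) k (G.inc e \ T) hα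
          have e1 : ∀ S₂, (if k ∈ G.cl S₂ (G.inc e \ T) then α (G.cl S₂ {k}) else
              G.Pop Ω k α (T ∪ G.cl S₂ (G.inc e \ T)))
              = (if k ∈ G.cl S₂ (G.inc e \ T) then α (G.cl S₂ {k}) else
              G.ex (G.off (G.off Ω T) (G.cl S₂ (G.inc e \ T)))
                (fun S' => α (G.cl S' {k}))) := by
            intro S₂
            unfold Pop
            rw [G.off_off]
          rw [G.ex_congr fun S₂ _ => e1 S₂]
          unfold Pop
          linarith
  rw [G.ex_sub] at hdiff
  linarith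

/-- **Lemma W (monotonicity)** -/
theorem W_anti {A B Ω : Finset E} (hAB : A ⊆ B) (hB : B ⊆ Ω) (k : V)
    (s : Finset V) {α : Finset V → ℝ} (hα : Monotone α) :
    G.ex B (G.phi Ω k s α) ≤ G.ex A (G.phi Ω k s α) := by
  have main : ∀ C : Finset E, C ⊆ Ω →
      G.ex (A ∪ C) (G.phi Ω k s α) ≤ G.ex A (G.phi Ω k s α) := by
    intro C
    induction C using Finset.induction_on with
    | empty => intro _; simp
    | insert e C he ih =>
      intro hC
      have hCΩ : C ⊆ Ω := (Finset.subset_insert _ _).trans hC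
      have heΩ : e ∈ Ω := hC (Finset.mem_insert_self _ _)
      have hACΩ : A ∪ C ⊆ Ω := Finset.union_subset (hAB.trans hB) hCΩ
      rw [Finset.union_insert]
      by_cases heA : e ∈ A ∪ C
      · rw [Finset.insert_eq_of_mem heA]; exact ih hCΩ
      · refine le_trans ?_ (ih hCΩ)
        rw [G.ex_insert heA]
        have h1 := G.W_insert hACΩ heΩ k s hα
        have h2 := G.p_nonneg e
        have h3 := G.p_lt e
        nlinarith
  have := main B hB
  rwa [Finset.union_eq_right.2 hAB] at this

/-- `W(Ω) = 0` -/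
theorem W_full (Ω : Finset E) (k : V) (s : Finset V) (α : Finset V → ℝ) :
    G.ex Ω (G.phi Ω k s α) = 0 := by
  unfold phi
  rw [G.ex_split_s Ω k s (fun T R => G.Pop Ω k α T - α R)]
  refine (G.ex_congr (g := fun _ => 0) fun S _ => ?_).trans (G.ex_const Ω 0)
  by_cases hk : k ∈ G.cl S s
  · rw [if_pos hk]
  · rw [if_neg hk, G.ex_sub, G.ex_const]
    unfold Pop
    ring

/-- `W ≥ 0` -/
theorem W_nonneg {A Ω : Finset E} (hA : A ⊆ Ω) (k : V) (s : Finset V) {α : Finset V → ℝ}
    (hα : Monotone α) : 0 ≤ G.ex A (G.phi Ω k s α) := by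
  have := G.W_anti hA (Finset.Subset.refl Ω) k s hα
  rwa [G.W_full] at this

/-- `w(C) = W(Ω ∖ C)` -/
noncomputable def w (Ω : Finset E) (k : V) (s : Finset V) (α : Finset V → ℝ) (C : Finset V) : ℝ :=
  G.ex (G.off Ω C) (G.phi Ω k s α)

theorem w_nonneg (Ω : Finset E) (k : V) (s : Finset V) {α : Finset V → ℝ}
    (hα : Monotone α) (C : Finset V) : 0 ≤ G.w Ω k s α C :=
  G.W_nonneg (G.off_subset Ω C) k s hα

theorem w_mono (Ω : Finset E) (k : V) (s : Finset V) {α : Finset V → ℝ}
    (hα : Monotone α) : Monotone (G.w Ω k s α) := by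
  intro C C' h
  exact G.W_anti (G.off_anti Ω h) (G.off_subset Ω C) k s hα

theorem w_empty (Ω : Finset E) (k : V) (s : Finset V) (α : Finset V → ℝ) :
    G.w Ω k s α ∅ = 0 := by
  unfold w
  rw [off_empty, W_full]

/-- expectation of `w` after exploring the cluster of `y` -/
theorem ex_w_eq (Ω : Finset E) (k : V) (s : Finset V) (α : Finset V → ℝ) (C : Finset V) (y : V) :
    G.ex (G.off Ω C) (fun S => if Disjoint (G.cl S {y}) (insert k s) then
        G.w Ω k s α (C ∪ G.cl S {y}) else 0)
      = G.ex (G.off Ω C) (fun S => if Disjoint (G.cl S {y}) (insert k s) then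
        G.phi Ω k s α S else 0) := by
  have h := G.resample (G.off Ω C) {y} (fun D S' => if Disjoint D (insert k s) then
    G.phi Ω k s α S' else 0)
  have h1 : G.ex (G.off Ω C) (fun S => if Disjoint (G.cl S {y}) (insert k s) then
        G.w Ω k s α (C ∪ G.cl S {y}) else 0)
      = G.ex (G.off Ω C) (fun S => G.ex (G.off (G.off Ω C) (G.cl S {y}))
        (fun S' => if Disjoint (G.cl S {y}) (insert k s) then
        G.phi Ω k s α S' else 0)) := by
    refine G.ex_congr fun S _ => ?_
    rw [G.ex_ite, G.ex_const]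
    unfold w
    rw [G.off_off]
  rw [h1, ← h]
  refine G.ex_congr fun S _ => ?_
  by_cases hd : Disjoint (G.cl S {y}) (insert k s)
  · rw [if_pos hd, if_pos hd]
    rw [Finset.disjoint_insert_right] at hd
    have hsat := G.sat_cl S {y}
    unfold phi
    rw [G.cl_off hsat hd.2.symm, G.cl_off hsat (by simpa using hd.1)]
  · rw [if_neg hd, if_neg hd]

/-- **increment inequality**: any already explored set `C` -/
theorem incr_le (Ω : Finset E) (k : V) (s : Finset V) {α f₀ : Finset V → ℝ}
    (hα : Monotone α) (hsol : ∀ R, α R - G.Qop Ω s (G.Pop Ω k α) R = f₀ R)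
    (C : Finset V) (y : V) :
    G.ex (G.off Ω C) (fun S => if Disjoint (G.cl S {y}) (insert k s) then
        G.w Ω k s α (C ∪ G.cl S {y}) else 0)
      ≤ G.w Ω k s α C + G.ex (G.off Ω C) (fun S =>
          if k ∈ G.cl S {y} ∧ Disjoint (G.cl S {y}) s then f₀ (G.cl S {y}) else 0) := by
  rw [G.ex_w_eq]
  set A := G.off Ω C with hA
  have hAΩ : A ⊆ Ω := G.off_subset Ω C
  -- pointwise splitting
  have hpt : ∀ S, (if Disjoint (G.cl S {y}) (insert k s) then G.phi Ω k s α S else 0)
      = (if k ∈ G.cl S s then 0 else (fun T R => if y ∈ T then 0 else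
          G.Pop Ω k α T - α R) (G.cl S s) (G.cl S {k}))
        + (if k ∈ G.cl S s then 0 else (fun T R => if y ∈ R then
          α R - G.Pop Ω k α T else 0) (G.cl S s) (G.cl S {k})) := by
    intro S
    simp only [Finset.disjoint_insert_right]
    by_cases hk : k ∈ G.cl S s
    · rw [if_pos hk, if_pos hk]
      unfold phi
      rw [if_pos hk]
      simp
    · rw [if_neg hk, if_neg hk]
      unfold phi
      rw [if_neg hk]
      by_cases hys : y ∈ G.cl S s
      · have h1 : ¬ Disjoint (G.cl S {y}) s := (G.mem_cl_iff_not_disj).1 hys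
        have h2 : y ∉ G.cl S {k} := by
          intro h
          have h3 : G.cl S {y} = G.cl S {k} := G.cl_singleton_eq h
          rw [h3] at h1
          exact hk ((G.mem_cl_iff_not_disj).2 h1)
        rw [if_neg (fun h => h1 h.2), if_pos hys, if_neg h2]
        simp
      · have h1 : Disjoint (G.cl S {y}) s := (G.notMem_cl_iff_disj).1 hys
        by_cases hyk : y ∈ G.cl S {k}
        · have h3 : k ∈ G.cl S {y} := G.mem_cl_symm hyk
          rw [if_neg (fun h => h.1 h3), if_neg hys, if_pos hyk]
          ring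
        · have h3 : k ∉ G.cl S {y} := fun h => hyk (G.mem_cl_symm h)
          rw [if_pos ⟨h3, h1⟩, if_neg hys, if_neg hyk]
          ring
  rw [G.ex_congr fun S _ => hpt S, G.ex_add]
  apply add_le_add
  · -- first term
    rw [G.ex_split_s A k s (fun T R => if y ∈ T then 0 else G.Pop Ω k α T - α R)]
    unfold w phi
    rw [← hA, G.ex_split_s A k s (fun T R => G.Pop Ω k α T - α R)]
    refine G.ex_mono fun S _ => ?_
    by_cases hk : k ∈ G.cl S s
    · rw [if_pos hk, if_pos hk]
    · rw [if_neg hk, if_neg hk]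
      by_cases hy : y ∈ G.cl S s
      · simp only [if_pos hy]
        rw [G.ex_const, G.ex_sub, G.ex_const]
        have : G.ex (G.off A (G.cl S s)) (fun S' => α (G.cl S' {k}))
            ≤ G.Pop Ω k α (G.cl S s) :=
          G.ex_mono_set (G.off_mono hAΩ _)
            fun S S' hS => hα (G.cl_mono hS (Finset.Subset.refl _))
        linarith
      · simp only [if_neg hy]
        exact le_refl _
  · rw [G.ex_split_k A k s (fun T R => if y ∈ R then α R - G.Pop Ω k α T else 0)]
    refine G.ex_mono fun S _ => ?_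
    by_cases hk : k ∈ G.cl S s
    · rw [if_pos hk]
      have h1 : ¬ (k ∈ G.cl S {y} ∧ Disjoint (G.cl S {y}) s) := by
        rintro ⟨h1, h2⟩
        rw [← G.cl_singleton_eq h1, ← G.notMem_cl_iff_disj] at h2
        exact h2 hk
      rw [if_neg h1]
    · rw [if_neg hk]
      have hd : Disjoint (G.cl S {k}) s := (G.notMem_cl_iff_disj).1 hk
      by_cases hy : y ∈ G.cl S {k}
      · have h3 : G.cl S {y} = G.cl S {k} := G.cl_singleton_eq hy
        have h4 : k ∈ G.cl S {y} := G.mem_cl_symm hy
        simp only [if_pos hy]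
        rw [if_pos ⟨h4, by rw [h3]; exact hd⟩, h3, G.ex_sub, G.ex_const, ← hsol]
        have : G.Qop Ω s (G.Pop Ω k α) (G.cl S {k})
            ≤ G.ex (G.off A (G.cl S {k})) (fun S' => G.Pop Ω k α (G.cl S' s)) :=
          G.ex_anti_set (G.off_mono hAΩ _)
            fun S S' hS => G.Pop_anti Ω k hα (G.cl_mono hS (Finset.Subset.refl _))
        linarith
      · have h4 : k ∉ G.cl S {y} := fun h => hy (G.mem_cl_symm h)
        simp only [if_neg hy]
        rw [if_neg (fun h => h4 h.1), G.ex_const]

/-- **Lemma C**: with nothing explored the increment inequality is an equality -/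
theorem incr_eq (Ω : Finset E) (k : V) (s : Finset V) {α f₀ : Finset V → ℝ}
    (hsol : ∀ R, α R - G.Qop Ω s (G.Pop Ω k α) R = f₀ R) (y : V) :
    G.ex Ω (fun S => if Disjoint (G.cl S {y}) (insert k s) then
        G.w Ω k s α (G.cl S {y}) else 0)
      = G.ex Ω (fun S =>
          if k ∈ G.cl S {y} ∧ Disjoint (G.cl S {y}) s then f₀ (G.cl S {y}) else 0) := by
  have h0 := G.ex_w_eq Ω k s α ∅ y
  simp only [off_empty, Finset.empty_union] at h0
  rw [h0]
  have hpt : ∀ S, (if Disjoint (G.cl S {y}) (insert k s) then G.phi Ω k s α S else 0)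
      = (if k ∈ G.cl S s then 0 else (fun T R => if y ∈ T then 0 else
          G.Pop Ω k α T - α R) (G.cl S s) (G.cl S {k}))
        + (if k ∈ G.cl S s then 0 else (fun T R => if y ∈ R then
          α R - G.Pop Ω k α T else 0) (G.cl S s) (G.cl S {k})) := by
    intro S
    simp only [Finset.disjoint_insert_right]
    by_cases hk : k ∈ G.cl S s
    · rw [if_pos hk, if_pos hk]
      unfold phi
      rw [if_pos hk]
      simp
    · rw [if_neg hk, if_neg hk]
      unfold phi
      rw [if_neg hk]
      by_cases hys : y ∈ G.cl S s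
      · have h1 : ¬ Disjoint (G.cl S {y}) s := (G.mem_cl_iff_not_disj).1 hys
        have h2 : y ∉ G.cl S {k} := by
          intro h
          have h3 : G.cl S {y} = G.cl S {k} := G.cl_singleton_eq h
          rw [h3] at h1
          exact hk ((G.mem_cl_iff_not_disj).2 h1)
        rw [if_neg (fun h => h1 h.2), if_pos hys, if_neg h2]
        simp
      · have h1 : Disjoint (G.cl S {y}) s := (G.notMem_cl_iff_disj).1 hys
        by_cases hyk : y ∈ G.cl S {k}
        · have h3 : k ∈ G.cl S {y} := G.mem_cl_symm hyk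
          rw [if_neg (fun h => h.1 h3), if_neg hys, if_pos hyk]
          ring
        · have h3 : k ∉ G.cl S {y} := fun h => hyk (G.mem_cl_symm h)
          rw [if_pos ⟨h3, h1⟩, if_neg hys, if_neg hyk]
          ring
  rw [G.ex_congr fun S _ => hpt S, G.ex_add]
  rw [G.ex_split_s Ω k s (fun T R => if y ∈ T then 0 else G.Pop Ω k α T - α R),
    G.ex_split_k Ω k s (fun T R => if y ∈ R then α R - G.Pop Ω k α T else 0)]
  have h1 : G.ex Ω (fun S => if k ∈ G.cl S s then 0 else
      G.ex (G.off Ω (G.cl S s)) (fun S' => (fun T R => if y ∈ T then 0 else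
          G.Pop Ω k α T - α R) (G.cl S s) (G.cl S' {k}))) = 0 := by
    refine (G.ex_congr (g := fun _ => 0) fun S _ => ?_).trans (G.ex_const Ω 0)
    by_cases hk : k ∈ G.cl S s
    · rw [if_pos hk]
    · rw [if_neg hk]
      by_cases hy : y ∈ G.cl S s
      · simp only [if_pos hy]
        rw [G.ex_const]
      · simp only [if_neg hy]
        rw [G.ex_sub, G.ex_const]
        unfold Pop
        ring
  rw [h1, zero_add]
  refine G.ex_congr fun S _ => ?_
  by_cases hk : k ∈ G.cl S s
  · rw [if_pos hk]
    have h1 : ¬ (k ∈ G.cl S {y} ∧ Disjoint (G.cl S {y}) s) := by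
      rintro ⟨h1, h2⟩
      rw [← G.cl_singleton_eq h1, ← G.notMem_cl_iff_disj] at h2
      exact h2 hk
    rw [if_neg h1]
  · rw [if_neg hk]
    have hd : Disjoint (G.cl S {k}) s := (G.notMem_cl_iff_disj).1 hk
    by_cases hy : y ∈ G.cl S {k}
    · have h3 : G.cl S {y} = G.cl S {k} := G.cl_singleton_eq hy
      have h4 : k ∈ G.cl S {y} := G.mem_cl_symm hy
      simp only [if_pos hy]
      rw [if_pos ⟨h4, by rw [h3]; exact hd⟩, h3, G.ex_sub, G.ex_const, ← hsol]
      rfl
    · have h4 : k ∉ G.cl S {y} := fun h => hy (G.mem_cl_symm h)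
      simp only [if_neg hy]
      rw [if_neg (fun h => h4 h.1), G.ex_const]

end HG

end Crest.Agent.R147.KN
end

-- ▼ part R147/KN/Poisson
section

/-!
# The Poisson equation `α - QPα = F - μ` with monotone `α`
-/

set_option autoImplicit false
set_option linter.unusedSectionVars false

open Finset

namespace Crest.Agent.R147.KN

namespace HG

variable {V E : Type*} [DecidableEq V] [DecidableEq E] [Fintype V] (G : HG V E)

theorem ex_hasSum {A : Finset E} {f : ℕ → Finset E → ℝ} {F : Finset E → ℝ}
    (h : ∀ S, HasSum (fun n => f n S) (F S)) :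
    HasSum (fun n => G.ex A (f n)) (G.ex A F) := by
  unfold ex
  exact hasSum_sum fun S _ => (h S).mul_left _

/-- probability that all hyperedges of `A` are closed -/
theorem ex_ind_empty (A : Finset E) :
    G.ex A (fun S => if S = ∅ then 1 else 0) = ∏ e ∈ A, (1 - G.p e) := by
  unfold ex
  rw [Finset.sum_eq_single ∅]
  · simp [wt]
  · intro S _ hS
    simp [hS]
  · intro h
    exact absurd (Finset.empty_mem_powerset A) h

/-- probability that all hyperedges of `Ω` are closed -/
noncomputable def cc (Ω : Finset E) : ℝ := ∏ e ∈ Ω, (1 - G.p e)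

theorem cc_pos (Ω : Finset E) : 0 < G.cc Ω :=
  Finset.prod_pos fun e _ => by linarith [G.p_lt e]

theorem cc_le_one (Ω : Finset E) : G.cc Ω ≤ 1 :=
  Finset.prod_le_one (fun e _ => by linarith [G.p_lt e]) (fun e _ => by linarith [G.p_nonneg e])

theorem cc_anti {A Ω : Finset E} (h : A ⊆ Ω) : G.cc Ω ≤ G.cc A := by
  unfold cc
  rw [← Finset.prod_sdiff h]
  have h1 : ∏ e ∈ Ω \ A, (1 - G.p e) ≤ 1 :=
    Finset.prod_le_one (fun e _ => by linarith [G.p_lt e]) (fun e _ => by linarith [G.p_nonneg e])
  have h2 : 0 ≤ ∏ e ∈ A, (1 - G.p e) :=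
    Finset.prod_nonneg fun e _ => by linarith [G.p_lt e]
  nlinarith

theorem cl_empty (D : Finset V) : G.cl ∅ D = D :=
  G.cl_eq_of_sat (by intro e he; exact absurd he (Finset.notMem_empty e))

/-- upper bound using the all-closed configuration -/
theorem ex_le_empty {A Ω : Finset E} (hA : A ⊆ Ω) {f : Finset E → ℝ} {M : ℝ}
    (h : ∀ S, f S ≤ M) : G.ex A f ≤ M - G.cc Ω * (M - f ∅) := by
  have h1 : G.ex A f ≤ G.ex A (fun S => M - (if S = ∅ then 1 else 0) * (M - f ∅)) := by
    refine G.ex_mono fun S _ => ?_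
    by_cases hS : S = ∅
    · subst hS; simp
    · rw [if_neg hS]; linarith [h S]
  rw [G.ex_sub, G.ex_const, G.ex_mul_right, G.ex_ind_empty] at h1
  have h2 := G.cc_anti hA
  have h3 : 0 ≤ M - f ∅ := by linarith [h ∅]
  unfold cc at h2 ⊢
  nlinarith

theorem empty_le_ex {A Ω : Finset E} (hA : A ⊆ Ω) {f : Finset E → ℝ} {m : ℝ}
    (h : ∀ S, m ≤ f S) : m + G.cc Ω * (f ∅ - m) ≤ G.ex A f := by
  have := G.ex_le_empty hA (f := fun S => - f S) (M := -m) (fun S => by linarith [h S])
  rw [G.ex_neg] at this
  linarith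

theorem pos_notConn (Ω : Finset E) {k : V} {s : Finset V} (hk : k ∉ s) :
    0 < G.ex Ω (fun S => if k ∈ G.cl S s then (0 : ℝ) else 1) := by
  have := G.empty_le_ex (Finset.Subset.refl Ω)
    (f := fun S => if k ∈ G.cl S s then (0 : ℝ) else 1) (m := 0)
    (fun S => by split_ifs <;> norm_num)
  simp only [cl_empty, if_neg hk] at this
  have := G.cc_pos Ω
  linarith

/-- the operator `QP` -/
noncomputable def QP (Ω : Finset E) (k : V) (s : Finset V) (f : Finset V → ℝ) :
    Finset V → ℝ := G.Qop Ω s (G.Pop Ω k f)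

theorem QP_mono (Ω : Finset E) (k : V) (s : Finset V) {f : Finset V → ℝ} (hf : Monotone f) :
    Monotone (G.QP Ω k s f) := G.Qop_mono Ω s (G.Pop_anti Ω k hf)

theorem QP_invariant (Ω : Finset E) (k : V) (s : Finset V) (f : Finset V → ℝ) :
    G.ex Ω (fun S => if k ∈ G.cl S s then 0 else G.QP Ω k s f (G.cl S {k}))
      = G.ex Ω (fun S => if k ∈ G.cl S s then 0 else f (G.cl S {k})) := by
  have h1 := G.ex_split_k Ω k s (fun T _ => G.Pop Ω k f T)
  have h2 := G.ex_split_s Ω k s (fun _ R => f R)
  unfold QP Qop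
  rw [← h1, h2]
  rfl

theorem QP_contract (Ω : Finset E) (k : V) (s : Finset V) {f : Finset V → ℝ} {δ : ℝ}
    (h : ∀ R R', f R - f R' ≤ δ) (R R' : Finset V) :
    G.QP Ω k s f R - G.QP Ω k s f R' ≤ (1 - G.cc Ω) * δ := by
  obtain ⟨R₀, hR₀⟩ := Finite.exists_max f
  set M := f R₀ with hM
  have hlow : ∀ R, M - δ ≤ f R := fun R => by linarith [h R₀ R]
  set g := G.Pop Ω k f with hg
  have hg1 : ∀ T, g T ≤ M := fun T => G.ex_le_of_le fun S _ => hR₀ _
  have hg2 : ∀ T, M - δ ≤ g T := fun T => G.le_ex_of_le fun S _ => hlow _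
  have h1 : G.QP Ω k s f R ≤ M - G.cc Ω * (M - g s) := by
    have := G.ex_le_empty (G.off_subset Ω R) (f := fun S => g (G.cl S s)) (M := M)
      (fun S => hg1 _)
    rw [cl_empty] at this
    exact this
  have h2 : (M - δ) + G.cc Ω * (g s - (M - δ)) ≤ G.QP Ω k s f R' := by
    have := G.empty_le_ex (G.off_subset Ω R') (f := fun S => g (G.cl S s)) (m := M - δ)
      (fun S => hg2 _)
    rw [cl_empty] at this
    exact this
  linarith

/-- iterates of `QP` -/
noncomputable def it (Ω : Finset E) (k : V) (s : Finset V) (f : Finset V → ℝ) (n : ℕ) :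
    Finset V → ℝ := (G.QP Ω k s)^[n] f

theorem it_zero (Ω : Finset E) (k : V) (s : Finset V) (f : Finset V → ℝ) :
    G.it Ω k s f 0 = f := rfl

theorem it_succ (Ω : Finset E) (k : V) (s : Finset V) (f : Finset V → ℝ) (n : ℕ) :
    G.it Ω k s f (n + 1) = G.QP Ω k s (G.it Ω k s f n) := by
  unfold it
  rw [Function.iterate_succ_apply']

theorem it_mono (Ω : Finset E) (k : V) (s : Finset V) {f : Finset V → ℝ} (hf : Monotone f)
    (n : ℕ) : Monotone (G.it Ω k s f n) := by
  induction n with
  | zero => exact hf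
  | succ n ih => rw [it_succ]; exact G.QP_mono Ω k s ih

theorem it_osc (Ω : Finset E) (k : V) (s : Finset V) {f : Finset V → ℝ} {δ : ℝ}
    (h : ∀ R R', f R - f R' ≤ δ) (n : ℕ) :
    ∀ R R', G.it Ω k s f n R - G.it Ω k s f n R' ≤ (1 - G.cc Ω) ^ n * δ := by
  induction n with
  | zero => simpa [it_zero] using h
  | succ n ih =>
    intro R R'
    have := G.QP_contract Ω k s ih R R'
    rw [pow_succ, it_succ]
    calc _ ≤ (1 - G.cc Ω) * ((1 - G.cc Ω) ^ n * δ) := this
      _ = _ := by ring

theorem it_mean (Ω : Finset E) (k : V) (s : Finset V) {f : Finset V → ℝ}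
    (h : G.ex Ω (fun S => if k ∈ G.cl S s then 0 else f (G.cl S {k})) = 0) (n : ℕ) :
    G.ex Ω (fun S => if k ∈ G.cl S s then 0 else G.it Ω k s f n (G.cl S {k})) = 0 := by
  induction n with
  | zero => exact h
  | succ n ih =>
    rw [it_succ, QP_invariant]
    exact ih

/-- a mean-zero function of oscillation `≤ δ` is bounded by `δ` -/
theorem abs_le_of_mean (Ω : Finset E) {k : V} {s : Finset V} (hk : k ∉ s) {f : Finset V → ℝ}
    {δ : ℝ} (h : ∀ R R', f R - f R' ≤ δ)
    (h0 : G.ex Ω (fun S => if k ∈ G.cl S s then 0 else f (G.cl S {k})) = 0) (R : Finset V) :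
    |f R| ≤ δ := by
  have hpos := G.pos_notConn Ω hk
  rw [abs_le]
  constructor
  · by_contra hlt
    push Not at hlt
    have h1 : ∀ R', f R' ≤ f R + δ := fun R' => by linarith [h R' R]
    have h2 : G.ex Ω (fun S => if k ∈ G.cl S s then 0 else f (G.cl S {k}))
        ≤ G.ex Ω (fun S => (if k ∈ G.cl S s then (0 : ℝ) else 1) * (f R + δ)) := by
      refine G.ex_mono fun S _ => ?_
      split_ifs
      · simp
      · simpa using h1 _
    rw [h0, G.ex_mul_right] at h2
    nlinarith
  · by_contra hlt
    push Not at hlt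
    have h1 : ∀ R', f R - δ ≤ f R' := fun R' => by linarith [h R R']
    have h2 : G.ex Ω (fun S => (if k ∈ G.cl S s then (0 : ℝ) else 1) * (f R - δ))
        ≤ G.ex Ω (fun S => if k ∈ G.cl S s then 0 else f (G.cl S {k})) := by
      refine G.ex_mono fun S _ => ?_
      split_ifs
      · simp
      · simpa using h1 _
    rw [h0, G.ex_mul_right] at h2
    nlinarith

/-- **Poisson equation** with a monotone solution -/
theorem exists_poisson (Ω : Finset E) {k : V} {s : Finset V} (hk : k ∉ s) {f : Finset V → ℝ}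
    (hf : Monotone f)
    (h0 : G.ex Ω (fun S => if k ∈ G.cl S s then 0 else f (G.cl S {k})) = 0) :
    ∃ α : Finset V → ℝ, Monotone α ∧ ∀ R, α R - G.Qop Ω s (G.Pop Ω k α) R = f R := by
  obtain ⟨R₁, hR₁⟩ := Finite.exists_max f
  obtain ⟨R₂, hR₂⟩ := Finite.exists_min f
  set δ := f R₁ - f R₂ with hδ
  have hosc : ∀ R R', f R - f R' ≤ δ := fun R R' => by linarith [hR₁ R, hR₂ R']
  have hb : ∀ n R, |G.it Ω k s f n R| ≤ (1 - G.cc Ω) ^ n * δ := fun n R =>
    G.abs_le_of_mean Ω hk (G.it_osc Ω k s hosc n) (G.it_mean Ω k s h0 n) R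
  have hc0 : 0 ≤ 1 - G.cc Ω := by linarith [G.cc_le_one Ω]
  have hc1 : 1 - G.cc Ω < 1 := by linarith [G.cc_pos Ω]
  have hs : ∀ R, Summable (fun n => G.it Ω k s f n R) := by
    intro R
    refine Summable.of_norm_bounded (g := fun n => (1 - G.cc Ω) ^ n * δ)
      ((summable_geometric_of_lt_one hc0 hc1).mul_right δ) ?_
    intro n
    rw [Real.norm_eq_abs]
    exact hb n R
  obtain ⟨α, hα⟩ : ∃ α : Finset V → ℝ, ∀ R, HasSum (fun n => G.it Ω k s f n R) (α R) :=
    ⟨fun R => ∑' n, G.it Ω k s f n R, fun R => (hs R).hasSum⟩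
  refine ⟨α, ?_, ?_⟩
  · intro R R' h
    exact hasSum_le (fun n => G.it_mono Ω k s hf n h) (hα R) (hα R')
  · intro R
    have h2 : ∀ T, HasSum (fun n => G.Pop Ω k (G.it Ω k s f n) T) (G.Pop Ω k α T) := by
      intro T
      unfold Pop
      exact G.ex_hasSum (f := fun n S => G.it Ω k s f n (G.cl S {k}))
        (F := fun S => α (G.cl S {k})) fun S => hα _
    have h3 : HasSum (fun n => G.QP Ω k s (G.it Ω k s f n) R) (G.Qop Ω s (G.Pop Ω k α) R) := by
      unfold QP Qop
      exact G.ex_hasSum (f := fun n S => G.Pop Ω k (G.it Ω k s f n) (G.cl S s))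
        (F := fun S => G.Pop Ω k α (G.cl S s)) fun S => h2 _
    have h3' : HasSum (fun n => G.it Ω k s f (n + 1) R) (G.Qop Ω s (G.Pop Ω k α) R) := by
      simpa only [it_succ] using h3
    have h4 := HasSum.zero_add (f := fun n => G.it Ω k s f n R) h3'
    have h5 := (hα R).unique h4
    rw [it_zero] at h5
    linarith

end HG

end Crest.Agent.R147.KN
end

-- ▼ part R147/KN/TStar

/-!
# Lemma C* and Theorem T* (adaptive Theorem T)
-/

set_option autoImplicit false
set_option linter.unusedSectionVars false

open Finset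

namespace Crest.Agent.R147.KN

namespace HG

variable {V E : Type*} [DecidableEq V] [DecidableEq E] [Fintype V] (G : HG V E)

/-- Expected reward of an adaptive exploration.  State `C` = union of the clusters revealed so
far; with `n + 1` steps left the strategy `q n C` stops (reward `Φ₀ C`) or queries a vertex `x`,
whose cluster `D` in the fresh configuration off `C` is revealed; if `D` meets the stop set `Z` the
exploration ends with reward `Φ₁ C D`. -/
noncomputable def run (Ω : Finset E) (Z : Finset V) (q : ℕ → Finset V → Option V)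
    (Φ₀ : Finset V → ℝ) (Φ₁ : Finset V → Finset V → ℝ) : ℕ → Finset V → ℝ
  | 0, C => Φ₀ C
  | n + 1, C =>
    match q n C with
    | none => Φ₀ C
    | some x => G.ex (G.off Ω C) (fun S =>
        if Disjoint (G.cl S {x}) Z then run Ω Z q Φ₀ Φ₁ n (C ∪ G.cl S {x})
        else Φ₁ C (G.cl S {x}))

section run

variable {Ω : Finset E} {Z : Finset V} {q : ℕ → Finset V → Option V}

theorem run_mono {Φ₀ Φ₀' : Finset V → ℝ} {Φ₁ Φ₁' : Finset V → Finset V → ℝ}
    (h0 : ∀ C, Disjoint C Z → Φ₀ C ≤ Φ₀' C)
    (h1 : ∀ C D, Disjoint C Z → ¬ Disjoint D Z → Φ₁ C D ≤ Φ₁' C D) (n : ℕ) :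
    ∀ C, Disjoint C Z → G.run Ω Z q Φ₀ Φ₁ n C ≤ G.run Ω Z q Φ₀' Φ₁' n C := by
  induction n with
  | zero => intro C hC; exact h0 C hC
  | succ n ih =>
    intro C hC
    simp only [run]
    cases q n C with
    | none => exact h0 C hC
    | some x =>
      refine G.ex_mono fun S _ => ?_
      by_cases hd : Disjoint (G.cl S {x}) Z
      · simp only [if_pos hd]
        exact ih _ (Finset.disjoint_union_left.2 ⟨hC, hd⟩)
      · simp only [if_neg hd]
        exact h1 _ _ hC hd

theorem run_sub {Φ₀ Φ₀' : Finset V → ℝ} {Φ₁ Φ₁' : Finset V → Finset V → ℝ} (c : ℝ) (n : ℕ) :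
    ∀ C, G.run Ω Z q (fun C => Φ₀ C - c * Φ₀' C) (fun C D => Φ₁ C D - c * Φ₁' C D) n C
      = G.run Ω Z q Φ₀ Φ₁ n C - c * G.run Ω Z q Φ₀' Φ₁' n C := by
  induction n with
  | zero => intro C; rfl
  | succ n ih =>
    intro C
    simp only [run]
    cases q n C with
    | none => rfl
    | some x =>
      simp only
      rw [← G.ex_mul_left, ← G.ex_sub]
      refine G.ex_congr fun S _ => ?_
      by_cases hd : Disjoint (G.cl S {x}) Z
      · simp only [if_pos hd]
        exact ih _
      · simp only [if_neg hd]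

theorem run_congr {Φ₀ Φ₀' : Finset V → ℝ} {Φ₁ Φ₁' : Finset V → Finset V → ℝ}
    (h0 : ∀ C, Disjoint C Z → Φ₀ C = Φ₀' C)
    (h1 : ∀ C D, Disjoint C Z → ¬ Disjoint D Z → Φ₁ C D = Φ₁' C D) (n : ℕ)
    (C : Finset V) (hC : Disjoint C Z) :
    G.run Ω Z q Φ₀ Φ₁ n C = G.run Ω Z q Φ₀' Φ₁' n C :=
  le_antisymm (G.run_mono (fun C hC => (h0 C hC).le) (fun C D hC hD => (h1 C D hC hD).le) n C hC)
    (G.run_mono (fun C hC => (h0 C hC).ge) (fun C D hC hD => (h1 C D hC hD).ge) n C hC)

theorem run_zero (n : ℕ) (C : Finset V) :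
    G.run Ω Z q (fun _ => 0) (fun _ _ => 0) n C = 0 := by
  induction n generalizing C with
  | zero => rfl
  | succ n ih =>
    simp only [run]
    cases q n C with
    | none => rfl
    | some x =>
      simp only [ih, ite_self]
      rw [G.ex_const]

theorem run_nonneg {Φ₀ : Finset V → ℝ} {Φ₁ : Finset V → Finset V → ℝ}
    (h0 : ∀ C, Disjoint C Z → 0 ≤ Φ₀ C)
    (h1 : ∀ C D, Disjoint C Z → ¬ Disjoint D Z → 0 ≤ Φ₁ C D) (n : ℕ)
    (C : Finset V) (hC : Disjoint C Z) : 0 ≤ G.run Ω Z q Φ₀ Φ₁ n C := by
  have := G.run_mono (q := q) (Ω := Ω) (Φ₀ := fun _ => 0) (Φ₁ := fun _ _ => 0) h0 h1 n C hC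
  rwa [G.run_zero] at this

/-- **Lemma C*** -/
theorem run_ge_w (k : V) (s : Finset V) {α f₀ : Finset V → ℝ}
    (hα : Monotone α) (hsol : ∀ R, α R - G.Qop Ω s (G.Pop Ω k α) R = f₀ R)
    (hZ : insert k s ⊆ Z) (n : ℕ) : ∀ C,
    G.run Ω Z q (G.w Ω k s α)
        (fun C D => if Disjoint D (insert k s) then G.w Ω k s α (C ∪ D) else 0) n C
      - G.w Ω k s α C
    ≤ G.run Ω Z q (fun _ => 0)
        (fun _ D => if k ∈ D ∧ Disjoint D s then f₀ D else 0) n C := by
  induction n with
  | zero => intro C; simp [run]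
  | succ n ih =>
    intro C
    simp only [run]
    cases q n C with
    | none => simp
    | some x =>
      simp only
      have hinc := G.incr_le Ω k s hα hsol C x
      have hmain : G.ex (G.off Ω C) (fun S =>
            (if Disjoint (G.cl S {x}) Z then
              G.run Ω Z q (G.w Ω k s α)
                (fun C D => if Disjoint D (insert k s) then G.w Ω k s α (C ∪ D) else 0) n
                (C ∪ G.cl S {x})
            else if Disjoint (G.cl S {x}) (insert k s) then
              G.w Ω k s α (C ∪ G.cl S {x}) else 0)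
            - (if Disjoint (G.cl S {x}) (insert k s) then
              G.w Ω k s α (C ∪ G.cl S {x}) else 0)
            + (if k ∈ G.cl S {x} ∧ Disjoint (G.cl S {x}) s then f₀ (G.cl S {x}) else 0))
          ≤ G.ex (G.off Ω C) (fun S =>
            if Disjoint (G.cl S {x}) Z then
              G.run Ω Z q (fun _ => 0)
                (fun _ D => if k ∈ D ∧ Disjoint D s then f₀ D else 0) n (C ∪ G.cl S {x})
            else (if k ∈ G.cl S {x} ∧ Disjoint (G.cl S {x}) s then f₀ (G.cl S {x}) else 0)) := by
        refine G.ex_mono fun S _ => ?_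
        by_cases hd : Disjoint (G.cl S {x}) Z
        · have hd' : Disjoint (G.cl S {x}) (insert k s) :=
            Finset.disjoint_of_subset_right hZ hd
          have hk : k ∉ G.cl S {x} := (Finset.disjoint_insert_right.1 hd').1
          rw [if_pos hd, if_pos hd, if_pos hd', if_neg (fun h => hk h.1)]
          have := ih (C ∪ G.cl S {x})
          linarith
        · rw [if_neg hd, if_neg hd]
          linarith
      rw [G.ex_add, G.ex_sub] at hmain
      linarith

end run

/-- `E[u(C_i); i ≁ s]` -/
noncomputable def cE (Ω : Finset E) (s : Finset V) (i : V) (u : Finset V → ℝ) : ℝ :=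
  G.ex Ω (fun S => if Disjoint (G.cl S {i}) s then u (G.cl S {i}) else 0)

/-- `E[u(C_i); i ~ j, i ≁ s]` -/
noncomputable def cJ (Ω : Finset E) (j : V) (s : Finset V) (i : V) (u : Finset V → ℝ) : ℝ :=
  G.ex Ω (fun S => if j ∈ G.cl S {i} ∧ Disjoint (G.cl S {i}) s then u (G.cl S {i}) else 0)

theorem cE_split (Ω : Finset E) (j : V) (s : Finset V) (i : V) (u : Finset V → ℝ) :
    G.cE Ω s i u = G.cE Ω (insert j s) i u + G.cJ Ω j s i u := by
  unfold cE cJ
  rw [← G.ex_add]
  refine G.ex_congr fun S _ => ?_
  simp only [Finset.disjoint_insert_right]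
  by_cases h1 : j ∈ G.cl S {i} <;> by_cases h2 : Disjoint (G.cl S {i}) s <;> simp [h1, h2]

theorem cJ_sub (Ω : Finset E) (j : V) (s : Finset V) (i : V) (u v : Finset V → ℝ) (c : ℝ) :
    G.cJ Ω j s i (fun R => u R - c * v R) = G.cJ Ω j s i u - c * G.cJ Ω j s i v := by
  unfold cJ
  rw [← G.ex_mul_left, ← G.ex_sub]
  refine G.ex_congr fun S _ => ?_
  split_ifs <;> simp

theorem cE_sub (Ω : Finset E) (s : Finset V) (i : V) (u v : Finset V → ℝ) (c : ℝ) :
    G.cE Ω s i (fun R => u R - c * v R) = G.cE Ω s i u - c * G.cE Ω s i v := by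
  unfold cE
  rw [← G.ex_mul_left, ← G.ex_sub]
  refine G.ex_congr fun S _ => ?_
  split_ifs <;> simp

theorem cE_eq (Ω : Finset E) (s : Finset V) (k : V) (u : Finset V → ℝ) :
    G.cE Ω s k u = G.ex Ω (fun S => if k ∈ G.cl S s then 0 else u (G.cl S {k})) := by
  unfold cE
  refine G.ex_congr fun S _ => ?_
  by_cases hk : k ∈ G.cl S s
  · rw [if_pos hk, if_neg ((G.mem_cl_iff_not_disj).1 hk)]
  · rw [if_neg hk, if_pos ((G.notMem_cl_iff_disj).1 hk)]

theorem cE_one_pos (Ω : Finset E) {s : Finset V} {k : V} (hk : k ∉ s) :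
    0 < G.cE Ω s k (fun _ => 1) := by
  rw [cE_eq]
  exact G.pos_notConn Ω hk

/-- **Theorem T*** (adaptive Theorem T).  Poles `P`, killing set `s`, stop set `Z = P ∪ s`. -/
theorem Tstar (Ω : Finset E) (Z : Finset V) (q : ℕ → Finset V → Option V) (N : ℕ)
    (P : Finset V) : ∀ s : Finset V, Disjoint P s → Z = P ∪ s →
    ∃ ℓ : V → ℝ, (∀ i, 0 ≤ ℓ i) ∧
      (∀ u : Finset V → ℝ, Monotone u →
        ∑ i ∈ P, ℓ i * G.cE Ω s i u
          ≤ G.run Ω Z q (fun _ => 0) (fun C D => if Disjoint D s then u (C ∪ D) else 0) N ∅) ∧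
      ∑ i ∈ P, ℓ i * G.cE Ω s i (fun _ => 1)
          = G.run Ω Z q (fun _ => 0) (fun _ D => if Disjoint D s then 1 else 0) N ∅ := by
  induction P using Finset.induction_on with
  | empty =>
    intro s _ hZ
    rw [Finset.empty_union] at hZ
    subst hZ
    have hz : ∀ Φ : Finset V → Finset V → ℝ, G.run Ω Z q (fun _ => 0)
        (fun C D => if Disjoint D Z then Φ C D else 0) N ∅ = 0 := by
      intro Φ
      refine (G.run_congr (Φ₀' := fun _ => 0) (Φ₁' := fun _ _ => 0) (fun _ _ => rfl)
        (fun C D _ hD => ?_) N ∅ (Finset.disjoint_empty_left _)).trans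
        (G.run_zero (Ω := Ω) (Z := Z) (q := q) N ∅)
      rw [if_neg hD]
    refine ⟨fun _ => 0, fun _ => le_refl _, fun u _ => ?_, ?_⟩
    · rw [hz (fun C D => u (C ∪ D))]; simp
    · rw [hz (fun _ _ => 1)]; simp
  | insert j P hj ih =>
    intro s hPs hZ
    rw [Finset.disjoint_insert_left] at hPs
    obtain ⟨hjs, hPs⟩ := hPs
    have hPs' : Disjoint P (insert j s) := by
      rw [Finset.disjoint_insert_right]; exact ⟨hj, hPs⟩
    have hZ' : Z = P ∪ insert j s := by
      rw [hZ, Finset.insert_union, Finset.union_insert]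
    obtain ⟨ℓ, hℓ0, hℓu, hℓ1⟩ := ih (insert j s) hPs' hZ'
    have hkZ : insert j s ⊆ Z := by rw [hZ']; exact Finset.subset_union_right
    -- the level functional
    set rJ : (Finset V → ℝ) → ℝ := fun F => G.run Ω Z q (fun _ => 0)
      (fun _ D => if j ∈ D ∧ Disjoint D s then F D else 0) N ∅ with hrJ
    set AA : (Finset V → ℝ) → ℝ := fun F => rJ F - ∑ i ∈ P, ℓ i * G.cJ Ω j s i F with hAA
    have hrJsub : ∀ (F H : Finset V → ℝ) (c : ℝ), rJ (fun R => F R - c * H R)
        = rJ F - c * rJ H := by
      intro F H c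
      simp only [hrJ]
      rw [← G.run_sub]
      refine G.run_congr (fun _ _ => by ring) (fun C D _ _ => ?_) N ∅
        (Finset.disjoint_empty_left _)
      split_ifs <;> ring
    have hAAsub : ∀ (F H : Finset V → ℝ) (c : ℝ), AA (fun R => F R - c * H R)
        = AA F - c * AA H := by
      intro F H c
      simp only [hAA]
      rw [hrJsub]
      have : ∑ i ∈ P, ℓ i * G.cJ Ω j s i (fun R => F R - c * H R)
          = ∑ i ∈ P, ℓ i * G.cJ Ω j s i F - c * ∑ i ∈ P, ℓ i * G.cJ Ω j s i H := by
        rw [Finset.mul_sum, ← Finset.sum_sub_distrib]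
        refine Finset.sum_congr rfl fun i _ => ?_
        rw [G.cJ_sub]; ring
      rw [this]; ring
    -- level inequality for mean zero monotone functions
    have hlevel0 : ∀ f : Finset V → ℝ, Monotone f → G.cE Ω s j f = 0 → 0 ≤ AA f := by
      intro f hf h0
      rw [cE_eq] at h0
      obtain ⟨α, hα, hsol⟩ := G.exists_poisson Ω hjs hf h0
      have h1 := G.run_ge_w (q := q) j s hα hsol hkZ N ∅
      rw [G.w_empty, sub_zero] at h1
      have h2 : G.run Ω Z q (fun _ => 0)
          (fun C D => if Disjoint D (insert j s) then G.w Ω j s α (C ∪ D) else 0) N ∅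
          ≤ G.run Ω Z q (G.w Ω j s α)
          (fun C D => if Disjoint D (insert j s) then G.w Ω j s α (C ∪ D) else 0) N ∅ :=
        G.run_mono (fun C _ => G.w_nonneg Ω j s hα C) (fun _ _ _ _ => le_refl _) N ∅
          (Finset.disjoint_empty_left _)
      have h3 := hℓu (G.w Ω j s α) (G.w_mono Ω j s hα)
      have h4 : ∑ i ∈ P, ℓ i * G.cE Ω (insert j s) i (G.w Ω j s α)
          = ∑ i ∈ P, ℓ i * G.cJ Ω j s i f := by
        refine Finset.sum_congr rfl fun i _ => ?_
        have := G.incr_eq Ω j s hsol i
        unfold cE cJ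
        rw [this]
      simp only [hAA, hrJ]
      linarith
    have hpos := G.cE_one_pos Ω hjs
    have hlevel : ∀ f : Finset V → ℝ, Monotone f →
        G.cE Ω s j f * AA (fun _ => 1) ≤ G.cE Ω s j (fun _ => 1) * AA f := by
      intro f hf
      set μ := G.cE Ω s j f / G.cE Ω s j (fun _ => 1) with hμ
      have h1 : 0 ≤ AA (fun R => f R - μ * (fun _ => (1 : ℝ)) R) := by
        apply hlevel0
        · intro R R' h
          have := hf h
          simp only
          linarith
        · rw [G.cE_sub, hμ]
          field_simp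
          ring
      rw [hAAsub] at h1
      have h2 : μ * G.cE Ω s j (fun _ => 1) = G.cE Ω s j f := by
        rw [hμ]; field_simp
      have h3 := mul_nonneg hpos.le h1
      rw [← h2]
      linarith
    -- nonnegativity
    have hA1 : 0 ≤ AA (fun _ => 1) := by
      set u : Finset V → ℝ := fun R => if Disjoint R P then 0 else 1 with hu
      have humono : Monotone u := by
        intro R R' h
        simp only [hu]
        by_cases h1 : Disjoint R' P
        · rw [if_pos h1, if_pos (Finset.disjoint_of_subset_left h h1)]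
        · rw [if_neg h1]; split_ifs <;> norm_num
      have h1 : 0 ≤ AA (fun R => 1 - 1 * u R) := by
        simp only [hAA]
        have e1 : ∑ i ∈ P, ℓ i * G.cJ Ω j s i (fun R => 1 - 1 * u R) = 0 := by
          refine Finset.sum_eq_zero fun i hi => ?_
          have : G.cJ Ω j s i (fun R => 1 - 1 * u R) = 0 := by
            unfold cJ
            refine (G.ex_congr (g := fun _ => 0) fun S _ => ?_).trans (G.ex_const Ω 0)
            have h5 : ¬ Disjoint (G.cl S {i}) P := by
              rw [Finset.not_disjoint_iff]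
              exact ⟨i, G.subset_cl S {i} (Finset.mem_singleton_self i), hi⟩
            simp [hu, h5]
          rw [this, mul_zero]
        rw [e1, sub_zero]
        simp only [hrJ]
        refine G.run_nonneg (fun _ _ => le_refl _) (fun C D _ _ => ?_) N ∅
          (Finset.disjoint_empty_left _)
        simp only [hu]
        split_ifs <;> norm_num
      rw [hAAsub] at h1
      have h2 := hlevel u humono
      have h3 : G.cE Ω s j u < G.cE Ω s j (fun _ => 1) := by
        have h6 : 0 < G.ex Ω (fun S => if Disjoint (G.cl S {j}) s then 1 - u (G.cl S {j})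
            else 0) := by
          have := G.empty_le_ex (Finset.Subset.refl Ω)
            (f := fun S => if Disjoint (G.cl S {j}) s then 1 - u (G.cl S {j}) else 0) (m := 0)
            (fun S => by
              simp only [hu]
              split_ifs <;> norm_num)
          have hcc := G.cc_pos Ω
          simp only [cl_empty] at this
          have h7 : Disjoint ({j} : Finset V) s := by simpa using hjs
          have h8 : Disjoint ({j} : Finset V) P := by simpa using hj
          simp only [hu, if_pos h7, if_pos h8] at this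
          simp only [hu]
          linarith
        have h9 : G.ex Ω (fun S => if Disjoint (G.cl S {j}) s then 1 - u (G.cl S {j})
            else 0) = G.cE Ω s j (fun _ => 1) - G.cE Ω s j u := by
          unfold cE
          rw [← G.ex_sub]
          refine G.ex_congr fun S _ => ?_
          split_ifs <;> simp
        linarith
      by_contra hneg
      push Not at hneg
      have h4 : AA u ≤ AA (fun _ => 1) := by linarith
      nlinarith
    set lj := AA (fun _ => 1) / G.cE Ω s j (fun _ => 1) with hlj
    have hlj0 : 0 ≤ lj := div_nonneg hA1 hpos.le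
    have hljm : lj * G.cE Ω s j (fun _ => 1) = AA (fun _ => 1) := by
      rw [hlj]; field_simp
    have hsumeq : ∀ u : Finset V → ℝ,
        ∑ i ∈ insert j P, (Function.update ℓ j lj) i * G.cE Ω s i u
          = lj * G.cE Ω s j u + ∑ i ∈ P, ℓ i * G.cE Ω (insert j s) i u
            + ∑ i ∈ P, ℓ i * G.cJ Ω j s i u := by
      intro u
      rw [Finset.sum_insert hj, Function.update_self, add_assoc, ← Finset.sum_add_distrib]
      congr 1
      refine Finset.sum_congr rfl fun i hi => ?_
      have hij : i ≠ j := fun h => hj (h ▸ hi)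
      rw [Function.update_of_ne hij, G.cE_split Ω j s i u]
      ring
    have hrunsplit : ∀ u : Finset V → Finset V → ℝ,
        G.run Ω Z q (fun _ => 0) (fun C D => if Disjoint D s then u C D else 0) N ∅
          = G.run Ω Z q (fun _ => 0)
              (fun C D => if Disjoint D (insert j s) then u C D else 0) N ∅
            + G.run Ω Z q (fun _ => 0)
              (fun C D => if j ∈ D ∧ Disjoint D s then u C D else 0) N ∅ := by
      intro u
      have h1 := G.run_sub (Ω := Ω) (Z := Z) (q := q) (Φ₀ := fun _ => 0)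
        (Φ₁ := fun C D => if Disjoint D s then u C D else 0) (Φ₀' := fun _ => 0)
        (Φ₁' := fun C D => if Disjoint D (insert j s) then u C D else 0) 1 N ∅
      have h2 : G.run Ω Z q (fun _ => (0 : ℝ) - 1 * 0)
          (fun C D => (if Disjoint D s then u C D else 0)
            - 1 * (if Disjoint D (insert j s) then u C D else 0)) N ∅
          = G.run Ω Z q (fun _ => 0)
              (fun C D => if j ∈ D ∧ Disjoint D s then u C D else 0) N ∅ := by
        refine G.run_congr (fun _ _ => by ring) (fun C D _ _ => ?_) N ∅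
          (Finset.disjoint_empty_left _)
        simp only [Finset.disjoint_insert_right]
        by_cases h3 : j ∈ D <;> by_cases h4 : Disjoint D s <;> simp [h3, h4]
      linarith
    refine ⟨Function.update ℓ j lj, ?_, ?_, ?_⟩
    · intro i
      by_cases hij : i = j
      · subst hij; rw [Function.update_self]; exact hlj0
      · rw [Function.update_of_ne hij]; exact hℓ0 i
    · intro u hu
      rw [hsumeq, hrunsplit (fun C D => u (C ∪ D))]
      have h1 := hℓu u hu
      have h2 : rJ u ≤ G.run Ω Z q (fun _ => 0)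
          (fun C D => if j ∈ D ∧ Disjoint D s then u (C ∪ D) else 0) N ∅ := by
        refine G.run_mono (fun _ _ => le_refl _) (fun C D _ _ => ?_) N ∅
          (Finset.disjoint_empty_left _)
        split_ifs
        · exact hu Finset.subset_union_right
        · exact le_refl _
      have h3 := hlevel u hu
      have h4 : lj * G.cE Ω s j u ≤ AA u := by
        have h5 : G.cE Ω s j (fun _ => 1) * (lj * G.cE Ω s j u)
            ≤ G.cE Ω s j (fun _ => 1) * AA u := by
          calc _ = G.cE Ω s j u * (lj * G.cE Ω s j (fun _ => 1)) := by ring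
            _ = G.cE Ω s j u * AA (fun _ => 1) := by rw [hljm]
            _ ≤ _ := h3
        exact le_of_mul_le_mul_left h5 hpos
      simp only [hAA] at h4
      linarith
    · rw [hsumeq, hrunsplit (fun _ _ => 1), hljm, ← hℓ1]
      simp only [hAA, hrJ]
      ring

end HG

end Crest.Agent.R147.KN
private theorem rz_8cff1cbf5a : type_of% @_root_.Crest.Agent.R147.KN.HG.run.eq_def := @_root_.Crest.Agent.R147.KN.HG.run.eq_def -- L22
private theorem rz_ba7df252f0 : type_of% @_root_.Crest.Agent.R147.KN.HG.run.eq_1 := @_root_.Crest.Agent.R147.KN.HG.run.eq_1 -- L22
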